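import Crest.Agent.R163.Q3.D.P3.S0
import Crest.Agent.R163.Q3.D.P3.H

set_option autoImplicit false
set_option maxRecDepth 100000
set_option linter.all false
set_option Elab.async false

namespace Crest.Agent.R163.P3

theorem p0_2_21 : Ok2 par f2 (((((Box3.unit.r 1).r 0).l 1).r 0).l 1) (selB2 0 (selB2 0 (selB2 0 (selB2 0 C0 317057893976047804718377336831) 4526929151041) 2952790016) 257949305) :=
  Ok2.run hw hf2 ⟨432,19,19,13,13⟩ 58
    (.part 239 (.chk false 1024) (.split 2 (.split 1 (.chk false 0) (.split 2 (.split 0 (.chk false 0) (.split 1 (.chk false 0) (.chk false 0))) (.chk false 0))) (.chk false 0)))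
    (by decide +kernel)

theorem p0_2_22 : Ok2 par f2 ((((Box3.unit.r 1).r 0).l 1).l 0) (selB2 0 (selB2 0 (selB2 0 (selB2 0 C0 317057893976047804718377336831) 4526929151041) 2952790016) 257949305) :=
  Ok2.run hw hf2 ⟨392,19,19,13,13⟩ 58
    (.part 63 (.chk false 1024) (.split 1 (.chk false 0) (.part 1 (.chk false 0) (.split 1 (.split 2 (.chk false 0) (.split 1 (.chk false 0) (.chk false 0))) (.chk false 0)))))
    (by decide +kernel)

theorem p0_2_23 : Ok2 par f2 (((Box3.unit.r 1).r 0).l 1) (selB2 1 (selB2 0 (selB2 0 (selB2 0 C0 317057893976047804718377336831) 4526929151041) 2952790016) 257949305) :=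
  Ok2.run hw hf2 ⟨306,19,19,13,13⟩ 58
    (.chk false 2048)
    (by decide +kernel)

theorem p0_2_24 : Ok2 par f2 (((((((Box3.unit.r 1).r 0).r 1).r 0).l 1).r 0).l 1) (selB2 0 (selB2 0 (selB2 0 (selB2 0 (selB2 0 C0 317057893976047804718377336831) 4526929151041) 2952790016) 939689110) 851964) :=
  Ok2.run hw hf2 ⟨389,19,19,13,13⟩ 58
    (.chk false 1024)
    (by decide +kernel)

theorem p0_2_25 : Ok2 par f2 (((((((Box3.unit.r 1).r 0).r 1).r 0).l 1).r 0).r 1) (selB2 0 (selB2 0 (selB2 0 (selB2 0 (selB2 0 C0 317057893976047804718377336831) 4526929151041) 2952790016) 939689110) 851964) :=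
  Ok2.run hw hf2 ⟨482,19,19,13,13⟩ 58
    (.part 14 (.chk false 1024) (.split 0 (.chk false 256) (.split 2 (.split 1 (.chk false 256) (.split 0 (.chk false 256) (.split 1 (.chk false 256) (.chk false 256)))) (.split 1 (.chk false 256) (.chk false 256)))))
    (by decide +kernel)

theorem p0_2_26 : Ok2 par f2 ((((((Box3.unit.r 1).r 0).r 1).r 0).l 1).l 0) (selB2 0 (selB2 0 (selB2 0 (selB2 0 (selB2 0 C0 317057893976047804718377336831) 4526929151041) 2952790016) 939689110) 851964) :=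
  Ok2.run hw hf2 ⟨368,19,19,13,13⟩ 58
    (.chk false 1024)
    (by decide +kernel)

theorem p0_2_27 : Ok2 par f2 (((((Box3.unit.r 1).r 0).r 1).r 0).l 1) (selB2 1 (selB2 0 (selB2 0 (selB2 0 (selB2 0 C0 317057893976047804718377336831) 4526929151041) 2952790016) 939689110) 851964) :=
  Ok2.run hw hf2 ⟨352,19,19,13,13⟩ 58
    (.chk false 2048)
    (by decide +kernel)

theorem p0_2_28 : Ok2 par f2 (((((Box3.unit.r 1).r 0).r 1).r 0).r 1) (selB2 1 (selB2 0 (selB2 0 (selB2 0 (selB2 0 C0 317057893976047804718377336831) 4526929151041) 2952790016) 939689110) 747455) :=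
  Ok2.run hw hf2 ⟨356,19,19,13,13⟩ 58
    (.chk false 2048)
    (by decide +kernel)

theorem p0_2_29 : Ok2 par f2 (((((Box3.unit.r 1).r 0).r 1).r 0).r 1) (selB2 0 (selB2 0 (selB2 0 (selB2 0 (selB2 0 C0 317057893976047804718377336831) 4526929151041) 2952790016) 939689110) 747455) :=
  Ok2.run hw hf2 ⟨447,19,19,13,13⟩ 58
    (.split 1 (.part 15 (.chk false 0) (.split 0 (.chk false 0) (.split 1 (.split 0 (.chk false 0) (.split 2 (.chk false 0) (.chk false 0))) (.chk false 0)))) (.chk false 0))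
    (by decide +kernel)

theorem p0_2_30 : Ok2 par f2 ((((Box3.unit.r 1).r 0).r 1).l 0) (selB2 0 (selB2 0 (selB2 0 (selB2 0 C0 317057893976047804718377336831) 4526929151041) 2952790016) 939689110) :=
  Ok2.run hw hf2 ⟨328,19,19,13,13⟩ 58
    (.chk false 2048)
    (by decide +kernel)

theorem p0_2_31 : Ok2 par f2 (((Box3.unit.r 1).r 0).r 1) (selB2 1 (selB2 0 (selB2 0 (selB2 0 C0 317057893976047804718377336831) 4526929151041) 2952790016) 939689110) :=
  Ok2.run hw hf2 ⟨314,19,19,13,13⟩ 58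
    (.chk false 1024)
    (by decide +kernel)

theorem p0_2_32 : Ok2 par f2 ((Box3.unit.r 1).r 0) (selB2 1 (selB2 0 (selB2 0 C0 317057893976047804718377336831) 4526929151041) 2952790016) :=
  Ok2.run hw hf2 ⟨292,19,19,13,13⟩ 58
    (.chk false 0)
    (by decide +kernel)

theorem p0_2_33 : Ok2 par f2 (Box3.unit.r 1) (selB2 1 (selB2 0 C0 317057893976047804718377336831) 4526929151041) :=
  Ok2.run hw hf2 ⟨264,19,19,13,13⟩ 58
    (.chk false 2048)
    (by decide +kernel)

theorem p0_2_34 : Ok2 par f2 Box3.unit (selB2 1 C0 317057893976047804718377336831) :=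
  Ok2.run hw hf2 ⟨235,19,19,13,13⟩ 58
    (.chk false 2048)
    (by decide +kernel)

theorem p0_3_0 : Ok2 par f3 Box3.unit (selB2 1 (selB2 1 C0 317067392561958487909342380031) 2199023255551) :=
  Ok2.run hw hf3 ⟨237,19,19,16,13⟩ 58
    (.chk false 2048)
    (by decide +kernel)

theorem p0_3_1 : Ok2 par f3 Box3.unit (selB2 0 (selB2 1 C0 317067392561958487909342380031) 2199023255551) :=
  Ok2.run hw hf3 ⟨237,19,19,16,13⟩ 58
    (.chk false 2048)
    (by decide +kernel)

theorem p0_3_2 : Ok2 par f3 ((Box3.unit.r 1).l 0) (selB2 1 (selB2 0 C0 317067392561958487909342380031) 131065) :=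
  Ok2.run hw hf3 ⟨294,19,19,16,13⟩ 58
    (.chk false 0)
    (by decide +kernel)

theorem p0_3_3 : Ok2 par f3 ((Box3.unit.r 1).l 0) (selB2 0 (selB2 0 C0 317067392561958487909342380031) 131065) :=
  Ok2.run hw hf3 ⟨380,19,19,16,13⟩ 58
    (.split 0 (.part 2 (.chk false 0) (.split 1 (.chk false 0) (.split 2 (.split 0 (.chk false 0) (.chk false 0)) (.chk false 0)))) (.chk false 0))
    (by decide +kernel)

theorem p0_3_4 : Ok2 par f3 (((((((Box3.unit.r 1).r 0).r 1).l 0).r 2).r 1).l 0) (selB2 0 (selB2 0 (selB2 0 (selB2 0 C0 317067392561958487909342380031) 96) 32409) 18) :=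
  Ok2.run hw hf3 ⟨458,19,19,16,13⟩ 58
    (.part 6 (.chk false 0) (.split 2 (.chk false 0) (.split 1 (.chk false 0) (.split 2 (.chk false 0) (.split 0 (.chk false 0) (.chk false 0))))))
    (by decide +kernel)

theorem p0_3_5 : Ok2 par f3 (((((((Box3.unit.r 1).r 0).r 1).l 0).r 2).r 1).r 0) (selB2 0 (selB2 0 (selB2 0 (selB2 0 C0 317067392561958487909342380031) 96) 32409) 18) :=
  Ok2.run hw hf3 ⟨447,19,19,16,13⟩ 58
    (.part 1 (.chk false 0) (.split 2 (.chk false 0) (.split 1 (.chk false 0) (.split 0 (.chk false 0) (.chk false 0)))))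
    (by decide +kernel)

theorem p0_3_6 : Ok2 par f3 ((((((Box3.unit.r 1).r 0).r 1).l 0).r 2).l 1) (selB2 0 (selB2 0 (selB2 0 (selB2 0 C0 317067392561958487909342380031) 96) 32409) 18) :=
  Ok2.run hw hf3 ⟨367,19,19,16,13⟩ 58
    (.chk false 0)
    (by decide +kernel)

theorem p0_3_7 : Ok2 par f3 (((((Box3.unit.r 1).r 0).r 1).l 0).r 2) (selB2 1 (selB2 0 (selB2 0 (selB2 0 C0 317067392561958487909342380031) 96) 32409) 18) :=
  Ok2.run hw hf3 ⟨351,19,19,16,13⟩ 58
    (.chk false 0)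
    (by decide +kernel)

theorem p0_3_8 : Ok2 par f3 (((((Box3.unit.r 1).r 0).r 1).l 0).l 2) (selB2 0 (selB2 0 (selB2 0 C0 317067392561958487909342380031) 96) 32409) :=
  Ok2.run hw hf3 ⟨391,19,19,16,13⟩ 58
    (.part 11 (.chk false 0) (.split 1 (.chk false 0) (.split 0 (.chk false 0) (.chk false 0))))
    (by decide +kernel)

theorem p0_3_9 : Ok2 par f3 ((((Box3.unit.r 1).r 0).r 1).l 0) (selB2 1 (selB2 0 (selB2 0 C0 317067392561958487909342380031) 96) 32409) :=
  Ok2.run hw hf3 ⟨329,19,19,16,13⟩ 58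
    (.chk false 0)
    (by decide +kernel)

theorem p0_3_10 : Ok2 par f3 (((((Box3.unit.r 1).r 0).r 1).r 0).l 2) (selB2 0 (selB2 0 (selB2 0 C0 317067392561958487909342380031) 96) 2559) :=
  Ok2.run hw hf3 ⟨400,19,19,16,13⟩ 58
    (.part 7 (.chk false 0) (.split 1 (.chk false 0) (.split 0 (.chk false 0) (.chk false 0))))
    (by decide +kernel)

theorem p0_3_11 : Ok2 par f3 (((((Box3.unit.r 1).r 0).r 1).r 0).r 2) (selB2 0 (selB2 0 (selB2 0 C0 317067392561958487909342380031) 96) 2559) :=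
  Ok2.run hw hf3 ⟨400,19,19,16,13⟩ 58
    (.part 8 (.chk false 0) (.split 1 (.chk false 0) (.part 1 (.chk false 0) (.split 0 (.chk false 0) (.chk false 0)))))
    (by decide +kernel)

theorem p0_3_12 : Ok2 par f3 ((((Box3.unit.r 1).r 0).r 1).r 0) (selB2 1 (selB2 0 (selB2 0 C0 317067392561958487909342380031) 96) 2559) :=
  Ok2.run hw hf3 ⟨338,19,19,16,13⟩ 58
    (.chk false 0)
    (by decide +kernel)

theorem p0_3_13 : Ok2 par f3 (((Box3.unit.r 1).r 0).l 1) (selB2 0 (selB2 0 C0 317067392561958487909342380031) 96) :=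
  Ok2.run hw hf3 ⟨307,19,19,16,13⟩ 58
    (.chk false 0)
    (by decide +kernel)

theorem p0_3_14 : Ok2 par f3 ((Box3.unit.r 1).r 0) (selB2 1 (selB2 0 C0 317067392561958487909342380031) 96) :=
  Ok2.run hw hf3 ⟨294,19,19,16,13⟩ 58
    (.chk false 0)
    (by decide +kernel)

theorem p0_3_15 : Ok2 par f3 (Box3.unit.l 1) (selB2 0 C0 317067392561958487909342380031) :=
  Ok2.run hw hf3 ⟨265,19,19,16,13⟩ 58
    (.chk false 0)
    (by decide +kernel)


end Crest.Agent.R163.P3
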