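import Crest.Agent.R163.Q3.D.P3.S0
import Crest.Agent.R163.Q3.D.P3.H

set_option autoImplicit false
set_option maxRecDepth 100000
set_option linter.all false
set_option Elab.async false

namespace Crest.Agent.R163.P3

theorem p0_4_0 : Ok2 par f4 ((((((Box3.unit.r 0).l 1).r 0).l 1).r 0).l 1) (selB2 0 (selB2 0 (selB2 0 C0 633825282553390791611818704895) 131182) 4207) :=
  Ok2.run hw hf4 ⟨449,19,19,13,13⟩ 58
    (.part 507 (.chk false 0) (.split 0 (.chk false 0) (.split 2 (.chk false 0) (.split 0 (.chk false 0) (.split 1 (.chk false 0) (.chk false 0))))))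
    (by decide +kernel)

theorem p0_4_1 : Ok2 par f4 ((((((Box3.unit.r 0).l 1).r 0).l 1).r 0).r 1) (selB2 0 (selB2 0 (selB2 0 C0 633825282553390791611818704895) 131182) 4207) :=
  Ok2.run hw hf4 ⟨372,19,19,13,13⟩ 58
    (.chk false 0)
    (by decide +kernel)

theorem p0_4_2 : Ok2 par f4 (((((Box3.unit.r 0).l 1).r 0).l 1).l 0) (selB2 0 (selB2 0 (selB2 0 C0 633825282553390791611818704895) 131182) 4207) :=
  Ok2.run hw hf4 ⟨352,19,19,13,13⟩ 58
    (.chk false 0)
    (by decide +kernel)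

theorem p0_4_3 : Ok2 par f4 ((((Box3.unit.r 0).l 1).r 0).l 1) (selB2 1 (selB2 0 (selB2 0 C0 633825282553390791611818704895) 131182) 4207) :=
  Ok2.run hw hf4 ⟨336,19,19,13,13⟩ 58
    (.chk false 2048)
    (by decide +kernel)

theorem p0_4_4 : Ok2 par f4 ((((Box3.unit.r 0).l 1).r 0).r 1) (selB2 0 (selB2 0 C0 633825282553390791611818704895) 131182) :=
  Ok2.run hw hf4 ⟨328,19,19,13,13⟩ 58
    (.chk false 2048)
    (by decide +kernel)

theorem p0_4_5 : Ok2 par f4 (((Box3.unit.r 0).l 1).l 0) (selB2 0 (selB2 0 C0 633825282553390791611818704895) 131182) :=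
  Ok2.run hw hf4 ⟨306,19,19,13,13⟩ 58
    (.chk false 2048)
    (by decide +kernel)

theorem p0_4_6 : Ok2 par f4 ((Box3.unit.r 0).l 1) (selB2 1 (selB2 0 C0 633825282553390791611818704895) 131182) :=
  Ok2.run hw hf4 ⟨292,19,19,13,13⟩ 58
    (.chk false 256)
    (by decide +kernel)

theorem p0_4_7 : Ok2 par f4 ((Box3.unit.r 0).r 1) (selB2 0 C0 633825282553390791611818704895) :=
  Ok2.run hw hf4 ⟨336,19,19,13,13⟩ 58
    (.part 4194283 (.chk false 2048) (.split 0 (.chk false 0) (.split 1 (.chk false 0) (.chk false 0))))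
    (by decide +kernel)

theorem p0_4_8 : Ok2 par f4 (Box3.unit.l 0) (selB2 0 C0 633825282553390791611818704895) :=
  Ok2.run hw hf4 ⟨264,19,19,13,13⟩ 58
    (.chk false 2048)
    (by decide +kernel)

theorem p0_4_9 : Ok2 par f4 Box3.unit (selB2 1 C0 633825282553390791611818704895) :=
  Ok2.run hw hf4 ⟨235,19,19,13,13⟩ 58
    (.chk false 2048)
    (by decide +kernel)

theorem p0_5_0 : Ok2 par f5 (((((Box3.unit.r 1).l 0).r 1).l 0).l 2) (selB2 0 (selB2 0 (selB2 0 (selB2 0 C0 633815836639260343260535586815) 500) 23066847) 1727) :=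
  Ok2.run hw hf5 ⟨430,19,19,13,13⟩ 58
    (.part 4 (.chk false 0) (.split 1 (.chk false 0) (.split 0 (.part 1 (.chk false 0) (.split 1 (.chk false 0) (.split 0 (.chk false 0) (.chk false 0)))) (.chk false 0))))
    (by decide +kernel)

theorem p0_5_1 : Ok2 par f5 (((((Box3.unit.r 1).l 0).r 1).l 0).r 2) (selB2 0 (selB2 0 (selB2 0 (selB2 0 C0 633815836639260343260535586815) 500) 23066847) 1727) :=
  Ok2.run hw hf5 ⟨441,19,19,13,13⟩ 58
    (.part 3 (.chk false 0) (.split 1 (.chk false 0) (.split 0 (.chk false 0) (.split 2 (.chk false 0) (.split 1 (.chk false 0) (.split 0 (.chk false 0) (.chk false 0)))))))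
    (by decide +kernel)

theorem p0_5_2 : Ok2 par f5 ((((Box3.unit.r 1).l 0).r 1).l 0) (selB2 1 (selB2 0 (selB2 0 (selB2 0 C0 633815836639260343260535586815) 500) 23066847) 1727) :=
  Ok2.run hw hf5 ⟨336,19,19,13,13⟩ 58
    (.chk false 0)
    (by decide +kernel)

theorem p0_5_3 : Ok2 par f5 (((((Box3.unit.r 1).l 0).r 1).r 0).l 2) (selB2 0 (selB2 0 (selB2 0 (selB2 0 C0 633815836639260343260535586815) 500) 23066847) 3021) :=
  Ok2.run hw hf5 ⟨365,19,19,13,13⟩ 58
    (.split 0 (.chk false 0) (.chk false 0))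
    (by decide +kernel)

theorem p0_5_4 : Ok2 par f5 (((((Box3.unit.r 1).l 0).r 1).r 0).r 2) (selB2 0 (selB2 0 (selB2 0 (selB2 0 C0 633815836639260343260535586815) 500) 23066847) 3021) :=
  Ok2.run hw hf5 ⟨437,19,19,13,13⟩ 58
    (.part 1 (.chk false 0) (.split 1 (.chk false 0) (.split 0 (.part 3 (.chk false 0) (.split 2 (.chk false 0) (.split 1 (.chk false 0) (.split 0 (.chk false 0) (.chk false 0))))) (.chk false 0))))
    (by decide +kernel)

theorem p0_5_5 : Ok2 par f5 ((((Box3.unit.r 1).l 0).r 1).r 0) (selB2 1 (selB2 0 (selB2 0 (selB2 0 C0 633815836639260343260535586815) 500) 23066847) 3021) :=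
  Ok2.run hw hf5 ⟨327,19,19,13,13⟩ 58
    (.chk false 0)
    (by decide +kernel)

theorem p0_5_6 : Ok2 par f5 (((Box3.unit.r 1).l 0).l 1) (selB2 0 (selB2 0 (selB2 0 C0 633815836639260343260535586815) 500) 23066847) :=
  Ok2.run hw hf5 ⟨305,19,19,13,13⟩ 58
    (.chk false 0)
    (by decide +kernel)

theorem p0_5_7 : Ok2 par f5 ((Box3.unit.r 1).l 0) (selB2 1 (selB2 0 (selB2 0 C0 633815836639260343260535586815) 500) 23066847) :=
  Ok2.run hw hf5 ⟨292,19,19,13,13⟩ 58
    (.chk false 0)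
    (by decide +kernel)

theorem p0_5_8 : Ok2 par f5 (((((Box3.unit.r 1).r 0).l 0).r 1).r 2) (selB2 1 (selB2 0 (selB2 0 (selB2 0 (selB2 0 (selB2 0 C0 633815836639260343260535586815) 500) 2116716391) 7) 256) 260) :=
  Ok2.run hw hf5 ⟨344,19,19,13,13⟩ 58
    (.chk false 0)
    (by decide +kernel)

theorem p0_5_9 : Ok2 par f5 (((((Box3.unit.r 1).r 0).l 0).r 1).r 2) (selB2 0 (selB2 0 (selB2 0 (selB2 0 (selB2 0 (selB2 0 C0 633815836639260343260535586815) 500) 2116716391) 7) 256) 260) :=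
  Ok2.run hw hf5 ⟨413,19,19,13,13⟩ 58
    (.split 0 (.part 92 (.chk false 0) (.split 1 (.chk false 0) (.part 2 (.chk false 0) (.split 2 (.chk false 0) (.split 0 (.chk false 0) (.chk false 0)))))) (.chk false 0))
    (by decide +kernel)

theorem p0_5_10 : Ok2 par f5 (((((Box3.unit.r 1).r 0).l 0).r 1).l 2) (selB2 0 (selB2 0 (selB2 0 (selB2 0 (selB2 0 C0 633815836639260343260535586815) 500) 2116716391) 7) 256) :=
  Ok2.run hw hf5 ⟨413,19,19,13,13⟩ 58
    (.part 114 (.chk false 0) (.split 0 (.part 30 (.chk false 0) (.split 1 (.chk false 0) (.split 2 (.split 0 (.chk false 0) (.chk false 0)) (.chk false 0)))) (.chk false 0)))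
    (by decide +kernel)

theorem p0_5_11 : Ok2 par f5 ((((Box3.unit.r 1).r 0).l 0).r 1) (selB2 1 (selB2 0 (selB2 0 (selB2 0 (selB2 0 C0 633815836639260343260535586815) 500) 2116716391) 7) 256) :=
  Ok2.run hw hf5 ⟨327,19,19,13,13⟩ 58
    (.chk false 0)
    (by decide +kernel)

theorem p0_5_12 : Ok2 par f5 ((((Box3.unit.r 1).r 0).l 0).l 1) (selB2 0 (selB2 0 (selB2 0 (selB2 0 C0 633815836639260343260535586815) 500) 2116716391) 7) :=
  Ok2.run hw hf5 ⟨318,19,19,13,13⟩ 58
    (.chk false 0)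
    (by decide +kernel)

theorem p0_5_13 : Ok2 par f5 (((Box3.unit.r 1).r 0).l 0) (selB2 1 (selB2 0 (selB2 0 (selB2 0 C0 633815836639260343260535586815) 500) 2116716391) 7) :=
  Ok2.run hw hf5 ⟨305,19,19,13,13⟩ 58
    (.chk false 0)
    (by decide +kernel)

theorem p0_5_14 : Ok2 par f5 (((Box3.unit.r 1).r 0).r 0) (selB2 1 (selB2 0 (selB2 0 (selB2 0 C0 633815836639260343260535586815) 500) 2116716391) 7741) :=
  Ok2.run hw hf5 ⟨314,19,19,13,13⟩ 58
    (.chk false 0)
    (by decide +kernel)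

theorem p0_5_15 : Ok2 par f5 (((Box3.unit.r 1).r 0).r 0) (selB2 0 (selB2 0 (selB2 0 (selB2 0 C0 633815836639260343260535586815) 500) 2116716391) 7741) :=
  Ok2.run hw hf5 ⟨389,19,19,13,13⟩ 58
    (.split 1 (.chk false 0) (.part 1 (.chk false 0) (.split 0 (.split 2 (.chk false 0) (.split 1 (.chk false 0) (.chk false 0))) (.chk false 0))))
    (by decide +kernel)

theorem p0_5_16 : Ok2 par f5 ((Box3.unit.r 1).r 0) (selB2 1 (selB2 0 (selB2 0 C0 633815836639260343260535586815) 500) 2116716391) :=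
  Ok2.run hw hf5 ⟨292,19,19,13,13⟩ 58
    (.chk false 0)
    (by decide +kernel)

theorem p0_5_17 : Ok2 par f5 (Box3.unit.l 1) (selB2 0 (selB2 0 C0 633815836639260343260535586815) 500) :=
  Ok2.run hw hf5 ⟨263,19,19,13,13⟩ 58
    (.chk false 0)
    (by decide +kernel)

theorem p0_5_18 : Ok2 par f5 Box3.unit (selB2 1 (selB2 0 C0 633815836639260343260535586815) 500) :=
  Ok2.run hw hf5 ⟨278,25,25,13,13⟩ 58
    (.chk true 0)
    (by decide +kernel)

theorem p0_5_19 : Ok2 par f5 Box3.unit (selB2 1 C0 633815836639260343260535586815) :=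
  Ok2.run hw hf5 ⟨235,19,19,13,13⟩ 58
    (.chk false 1024)
    (by decide +kernel)

theorem p0_6_0 : Ok2 par f6 Box3.unit (selB2 1 (selB2 1 C0 633825300114113558008146427903) 17592186044415) :=
  Ok2.run hw hf6 ⟨239,19,19,13,13⟩ 58
    (.chk false 512)
    (by decide +kernel)

theorem p0_6_1 : Ok2 par f6 Box3.unit (selB2 0 (selB2 1 C0 633825300114113558008146427903) 17592186044415) :=
  Ok2.run hw hf6 ⟨239,19,19,13,13⟩ 58
    (.chk false 0)
    (by decide +kernel)

theorem p0_6_2 : Ok2 par f6 Box3.unit (selB2 1 (selB2 0 C0 633825300114113558008146427903) 1021) :=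
  Ok2.run hw hf6 ⟨288,25,25,13,13⟩ 58
    (.chk true 0)
    (by decide +kernel)

theorem p0_6_3 : Ok2 par f6 Box3.unit (selB2 0 (selB2 0 C0 633825300114113558008146427903) 1021) :=
  Ok2.run hw hf6 ⟨313,19,19,13,13⟩ 58
    (.split 0 (.chk false 0) (.part 2 (.chk false 0) (.split 2 (.chk false 0) (.split 1 (.chk false 0) (.chk false 0)))))
    (by decide +kernel)

theorem p0_7_0 : Ok2 par f7 ((Box3.unit.l 0).l 1) (selB2 1 (selB2 0 (selB2 0 (selB2 0 (selB2 0 (selB2 0 C0 633825299971092744642148458495) 1851613) 8215) 17) 5377) 15) :=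
  Ok2.run hw hf7 ⟨371,25,25,13,13⟩ 58
    (.chk true 0)
    (by decide +kernel)


end Crest.Agent.R163.P3
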