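import Crest.Agent.R163.Q3.D.P3.S0
import Crest.Agent.R163.Q3.D.P3.H

set_option autoImplicit false
set_option maxRecDepth 100000
set_option linter.all false
set_option Elab.async false

namespace Crest.Agent.R163.P3

theorem p0_7_1 : Ok2 par f7 ((Box3.unit.l 0).l 1) (selB2 0 (selB2 0 (selB2 0 (selB2 0 (selB2 0 (selB2 0 C0 633825299971092744642148458495) 1851613) 8215) 17) 5377) 15) :=
  Ok2.run hw hf7 ⟨366,19,19,13,13⟩ 58
    (.split 0 (.part 7 (.chk false 0) (.split 1 (.chk false 0) (.part 1 (.chk false 0) (.split 0 (.chk false 0) (.chk false 0))))) (.chk false 0))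
    (by decide +kernel)

theorem p0_7_2 : Ok2 par f7 ((Box3.unit.l 0).l 1) (selB2 1 (selB2 0 (selB2 0 (selB2 0 (selB2 0 C0 633825299971092744642148458495) 1851613) 8215) 17) 5377) :=
  Ok2.run hw hf7 ⟨311,19,19,13,13⟩ 58
    (.chk false 512)
    (by decide +kernel)

theorem p0_7_3 : Ok2 par f7 (((Box3.unit.l 0).r 1).l 0) (selB2 1 (selB2 0 (selB2 0 (selB2 0 (selB2 0 (selB2 0 (selB2 0 (selB2 0 C0 633825299971092744642148458495) 1851613) 8215) 17) 5600) 24) 1) 3) :=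
  Ok2.run hw hf7 ⟨400,25,25,13,13⟩ 58
    (.chk true 0)
    (by decide +kernel)

theorem p0_7_4 : Ok2 par f7 (((Box3.unit.l 0).r 1).l 0) (selB2 0 (selB2 0 (selB2 0 (selB2 0 (selB2 0 (selB2 0 (selB2 0 (selB2 0 C0 633825299971092744642148458495) 1851613) 8215) 17) 5600) 24) 1) 3) :=
  Ok2.run hw hf7 ⟨422,19,19,13,13⟩ 58
    (.split 0 (.split 1 (.part 1 (.chk false 0) (.split 2 (.chk false 0) (.split 0 (.split 1 (.chk false 0) (.chk false 0)) (.chk false 0)))) (.chk false 0)) (.chk false 0))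
    (by decide +kernel)

theorem p0_7_5 : Ok2 par f7 (((Box3.unit.l 0).r 1).l 0) (selB2 1 (selB2 0 (selB2 0 (selB2 0 (selB2 0 (selB2 0 (selB2 0 C0 633825299971092744642148458495) 1851613) 8215) 17) 5600) 24) 1) :=
  Ok2.run hw hf7 ⟨333,19,19,13,13⟩ 58
    (.chk false 512)
    (by decide +kernel)

theorem p0_7_6 : Ok2 par f7 (((((Box3.unit.l 0).r 1).r 0).l 2).l 1) (selB2 0 (selB2 0 (selB2 0 (selB2 0 (selB2 0 (selB2 0 (selB2 0 (selB2 0 C0 633825299971092744642148458495) 1851613) 8215) 17) 5600) 24) 24) 6) :=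
  Ok2.run hw hf7 ⟨449,25,25,13,13⟩ 58
    (.split 0 (.chk false 512) (.chk true 0))
    (by decide +kernel)

theorem p0_7_7 : Ok2 par f7 (((((Box3.unit.l 0).r 1).r 0).l 2).r 1) (selB2 0 (selB2 0 (selB2 0 (selB2 0 (selB2 0 (selB2 0 (selB2 0 (selB2 0 C0 633825299971092744642148458495) 1851613) 8215) 17) 5600) 24) 24) 6) :=
  Ok2.run hw hf7 ⟨502,25,25,13,13⟩ 58
    (.split 2 (.split 0 (.split 1 (.chk false 512) (.chk true 0)) (.chk true 0)) (.chk true 0))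
    (by decide +kernel)

theorem p0_7_8 : Ok2 par f7 ((((((((((((((((Box3.unit.l 0).r 1).r 0).r 2).l 1).r 2).r 1).r 0).r 2).r 1).r 2).r 0).r 1).r 2).r 1).l 2) (selB2 0 (selB2 0 (selB2 0 (selB2 0 (selB2 0 (selB2 0 (selB2 0 (selB2 0 C0 633825299971092744642148458495) 1851613) 8215) 17) 5600) 24) 24) 6) :=
  Ok2.run hw hf7 ⟨683,25,25,13,13⟩ 58
    (.split 1 (.chk false 512) (.split 0 (.chk false 512) (.chk true 0)))
    (by decide +kernel)

theorem p0_7_9 : Ok2 par f7 ((((((((((((((((Box3.unit.l 0).r 1).r 0).r 2).l 1).r 2).r 1).r 0).r 2).r 1).r 2).r 0).r 1).r 2).r 1).r 2) (selB2 0 (selB2 0 (selB2 0 (selB2 0 (selB2 0 (selB2 0 (selB2 0 (selB2 0 C0 633825299971092744642148458495) 1851613) 8215) 17) 5600) 24) 24) 6) :=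
  Ok2.run hw hf7 ⟨659,25,25,13,13⟩ 58
    (.split 0 (.chk false 512) (.chk true 0))
    (by decide +kernel)

theorem p0_7_10 : Ok2 par f7 (((((((((((((((Box3.unit.l 0).r 1).r 0).r 2).l 1).r 2).r 1).r 0).r 2).r 1).r 2).r 0).r 1).r 2).l 1) (selB2 0 (selB2 0 (selB2 0 (selB2 0 (selB2 0 (selB2 0 (selB2 0 (selB2 0 C0 633825299971092744642148458495) 1851613) 8215) 17) 5600) 24) 24) 6) :=
  Ok2.run hw hf7 ⟨514,19,19,13,13⟩ 58
    (.chk false 512)
    (by decide +kernel)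

theorem p0_7_11 : Ok2 par f7 ((((((((((((((Box3.unit.l 0).r 1).r 0).r 2).l 1).r 2).r 1).r 0).r 2).r 1).r 2).r 0).r 1).l 2) (selB2 0 (selB2 0 (selB2 0 (selB2 0 (selB2 0 (selB2 0 (selB2 0 (selB2 0 C0 633825299971092744642148458495) 1851613) 8215) 17) 5600) 24) 24) 6) :=
  Ok2.run hw hf7 ⟨623,25,25,13,13⟩ 58
    (.split 1 (.chk false 512) (.chk true 0))
    (by decide +kernel)

theorem p0_7_12 : Ok2 par f7 (((((((((((((Box3.unit.l 0).r 1).r 0).r 2).l 1).r 2).r 1).r 0).r 2).r 1).r 2).r 0).l 1) (selB2 0 (selB2 0 (selB2 0 (selB2 0 (selB2 0 (selB2 0 (selB2 0 (selB2 0 C0 633825299971092744642148458495) 1851613) 8215) 17) 5600) 24) 24) 6) :=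
  Ok2.run hw hf7 ⟨483,19,19,13,13⟩ 58
    (.chk false 512)
    (by decide +kernel)

theorem p0_7_13 : Ok2 par f7 ((((((((((((Box3.unit.l 0).r 1).r 0).r 2).l 1).r 2).r 1).r 0).r 2).r 1).r 2).l 0) (selB2 0 (selB2 0 (selB2 0 (selB2 0 (selB2 0 (selB2 0 (selB2 0 (selB2 0 C0 633825299971092744642148458495) 1851613) 8215) 17) 5600) 24) 24) 6) :=
  Ok2.run hw hf7 ⟨468,19,19,13,13⟩ 58
    (.chk false 512)
    (by decide +kernel)

theorem p0_7_14 : Ok2 par f7 (((((((((((Box3.unit.l 0).r 1).r 0).r 2).l 1).r 2).r 1).r 0).r 2).r 1).l 2) (selB2 0 (selB2 0 (selB2 0 (selB2 0 (selB2 0 (selB2 0 (selB2 0 (selB2 0 C0 633825299971092744642148458495) 1851613) 8215) 17) 5600) 24) 24) 6) :=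
  Ok2.run hw hf7 ⟨561,25,25,13,13⟩ 58
    (.split 0 (.chk false 512) (.chk true 0))
    (by decide +kernel)

theorem p0_7_15 : Ok2 par f7 ((((((((((Box3.unit.l 0).r 1).r 0).r 2).l 1).r 2).r 1).r 0).r 2).l 1) (selB2 0 (selB2 0 (selB2 0 (selB2 0 (selB2 0 (selB2 0 (selB2 0 (selB2 0 C0 633825299971092744642148458495) 1851613) 8215) 17) 5600) 24) 24) 6) :=
  Ok2.run hw hf7 ⟨434,19,19,13,13⟩ 58
    (.chk false 512)
    (by decide +kernel)

theorem p0_7_16 : Ok2 par f7 (((((((((Box3.unit.l 0).r 1).r 0).r 2).l 1).r 2).r 1).r 0).l 2) (selB2 0 (selB2 0 (selB2 0 (selB2 0 (selB2 0 (selB2 0 (selB2 0 (selB2 0 C0 633825299971092744642148458495) 1851613) 8215) 17) 5600) 24) 24) 6) :=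
  Ok2.run hw hf7 ⟨560,25,25,13,13⟩ 58
    (.split 1 (.chk false 512) (.split 2 (.chk true 0) (.split 0 (.chk false 512) (.chk true 0))))
    (by decide +kernel)

theorem p0_7_17 : Ok2 par f7 ((((((((Box3.unit.l 0).r 1).r 0).r 2).l 1).r 2).r 1).l 0) (selB2 0 (selB2 0 (selB2 0 (selB2 0 (selB2 0 (selB2 0 (selB2 0 (selB2 0 C0 633825299971092744642148458495) 1851613) 8215) 17) 5600) 24) 24) 6) :=
  Ok2.run hw hf7 ⟨409,19,19,13,13⟩ 58
    (.chk false 512)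
    (by decide +kernel)

theorem p0_7_18 : Ok2 par f7 (((((((Box3.unit.l 0).r 1).r 0).r 2).l 1).r 2).l 1) (selB2 0 (selB2 0 (selB2 0 (selB2 0 (selB2 0 (selB2 0 (selB2 0 (selB2 0 C0 633825299971092744642148458495) 1851613) 8215) 17) 5600) 24) 24) 6) :=
  Ok2.run hw hf7 ⟨384,19,19,13,13⟩ 58
    (.chk false 512)
    (by decide +kernel)

theorem p0_7_19 : Ok2 par f7 ((((((Box3.unit.l 0).r 1).r 0).r 2).l 1).l 2) (selB2 0 (selB2 0 (selB2 0 (selB2 0 (selB2 0 (selB2 0 (selB2 0 (selB2 0 C0 633825299971092744642148458495) 1851613) 8215) 17) 5600) 24) 24) 6) :=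
  Ok2.run hw hf7 ⟨437,25,25,13,13⟩ 58
    (.chk true 0)
    (by decide +kernel)

theorem p0_7_20 : Ok2 par f7 ((((((((((((((Box3.unit.l 0).r 1).r 0).r 2).r 1).r 2).l 1).r 0).r 2).l 1).r 2).r 0).l 1).l 2) (selB2 0 (selB2 0 (selB2 0 (selB2 0 (selB2 0 (selB2 0 (selB2 0 (selB2 0 C0 633825299971092744642148458495) 1851613) 8215) 17) 5600) 24) 24) 6) :=
  Ok2.run hw hf7 ⟨600,25,25,13,13⟩ 58
    (.chk true 0)
    (by decide +kernel)

theorem p0_7_21 : Ok2 par f7 ((((((((((((((Box3.unit.l 0).r 1).r 0).r 2).r 1).r 2).l 1).r 0).r 2).l 1).r 2).r 0).l 1).r 2) (selB2 0 (selB2 0 (selB2 0 (selB2 0 (selB2 0 (selB2 0 (selB2 0 (selB2 0 C0 633825299971092744642148458495) 1851613) 8215) 17) 5600) 24) 24) 6) :=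
  Ok2.run hw hf7 ⟨659,25,25,13,13⟩ 58
    (.split 1 (.split 2 (.chk true 0) (.split 0 (.chk false 512) (.chk true 0))) (.chk true 0))
    (by decide +kernel)

theorem p0_7_22 : Ok2 par f7 (((((((((((((Box3.unit.l 0).r 1).r 0).r 2).r 1).r 2).l 1).r 0).r 2).l 1).r 2).r 0).r 1) (selB2 0 (selB2 0 (selB2 0 (selB2 0 (selB2 0 (selB2 0 (selB2 0 (selB2 0 C0 633825299971092744642148458495) 1851613) 8215) 17) 5600) 24) 24) 6) :=
  Ok2.run hw hf7 ⟨589,25,25,13,13⟩ 58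
    (.chk true 0)
    (by decide +kernel)

theorem p0_7_23 : Ok2 par f7 ((((((((((((Box3.unit.l 0).r 1).r 0).r 2).r 1).r 2).l 1).r 0).r 2).l 1).r 2).l 0) (selB2 0 (selB2 0 (selB2 0 (selB2 0 (selB2 0 (selB2 0 (selB2 0 (selB2 0 C0 633825299971092744642148458495) 1851613) 8215) 17) 5600) 24) 24) 6) :=
  Ok2.run hw hf7 ⟨470,19,19,13,13⟩ 58
    (.chk false 512)
    (by decide +kernel)

theorem p0_7_24 : Ok2 par f7 (((((((((((Box3.unit.l 0).r 1).r 0).r 2).r 1).r 2).l 1).r 0).r 2).l 1).l 2) (selB2 0 (selB2 0 (selB2 0 (selB2 0 (selB2 0 (selB2 0 (selB2 0 (selB2 0 C0 633825299971092744642148458495) 1851613) 8215) 17) 5600) 24) 24) 6) :=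
  Ok2.run hw hf7 ⟨564,25,25,13,13⟩ 58
    (.split 0 (.chk false 512) (.chk true 0))
    (by decide +kernel)

theorem p0_7_25 : Ok2 par f7 (((((((((((((((Box3.unit.l 0).r 1).r 0).r 2).r 1).r 2).l 1).r 0).r 2).r 1).r 2).r 1).r 2).l 0).l 1) (selB2 0 (selB2 0 (selB2 0 (selB2 0 (selB2 0 (selB2 0 (selB2 0 (selB2 0 C0 633825299971092744642148458495) 1851613) 8215) 17) 5600) 24) 24) 6) :=
  Ok2.run hw hf7 ⟨665,25,25,13,13⟩ 58
    (.split 2 (.split 0 (.chk false 512) (.chk true 0)) (.split 0 (.chk false 512) (.chk true 0)))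
    (by decide +kernel)

theorem p0_7_26 : Ok2 par f7 (((((((((((((((Box3.unit.l 0).r 1).r 0).r 2).r 1).r 2).l 1).r 0).r 2).r 1).r 2).r 1).r 2).l 0).r 1) (selB2 0 (selB2 0 (selB2 0 (selB2 0 (selB2 0 (selB2 0 (selB2 0 (selB2 0 C0 633825299971092744642148458495) 1851613) 8215) 17) 5600) 24) 24) 6) :=
  Ok2.run hw hf7 ⟨630,25,25,13,13⟩ 58
    (.chk true 0)
    (by decide +kernel)

theorem p0_7_27 : Ok2 par f7 ((((((((((((((Box3.unit.l 0).r 1).r 0).r 2).r 1).r 2).l 1).r 0).r 2).r 1).r 2).r 1).r 2).r 0) (selB2 0 (selB2 0 (selB2 0 (selB2 0 (selB2 0 (selB2 0 (selB2 0 (selB2 0 C0 633825299971092744642148458495) 1851613) 8215) 17) 5600) 24) 24) 6) :=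
  Ok2.run hw hf7 ⟨603,25,25,13,13⟩ 58
    (.chk true 0)
    (by decide +kernel)

theorem p0_7_28 : Ok2 par f7 (((((((((((((Box3.unit.l 0).r 1).r 0).r 2).r 1).r 2).l 1).r 0).r 2).r 1).r 2).r 1).l 2) (selB2 0 (selB2 0 (selB2 0 (selB2 0 (selB2 0 (selB2 0 (selB2 0 (selB2 0 C0 633825299971092744642148458495) 1851613) 8215) 17) 5600) 24) 24) 6) :=
  Ok2.run hw hf7 ⟨580,25,25,13,13⟩ 58
    (.chk true 0)
    (by decide +kernel)

theorem p0_7_29 : Ok2 par f7 ((((((((((((Box3.unit.l 0).r 1).r 0).r 2).r 1).r 2).l 1).r 0).r 2).r 1).r 2).l 1) (selB2 0 (selB2 0 (selB2 0 (selB2 0 (selB2 0 (selB2 0 (selB2 0 (selB2 0 C0 633825299971092744642148458495) 1851613) 8215) 17) 5600) 24) 24) 6) :=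
  Ok2.run hw hf7 ⟨602,25,25,13,13⟩ 58
    (.split 2 (.split 0 (.chk false 512) (.chk true 0)) (.split 0 (.chk false 512) (.chk true 0)))
    (by decide +kernel)

theorem p0_7_30 : Ok2 par f7 (((((((((((Box3.unit.l 0).r 1).r 0).r 2).r 1).r 2).l 1).r 0).r 2).r 1).l 2) (selB2 0 (selB2 0 (selB2 0 (selB2 0 (selB2 0 (selB2 0 (selB2 0 (selB2 0 C0 633825299971092744642148458495) 1851613) 8215) 17) 5600) 24) 24) 6) :=
  Ok2.run hw hf7 ⟨589,25,25,13,13⟩ 58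
    (.split 1 (.split 0 (.chk false 512) (.chk true 0)) (.chk true 0))
    (by decide +kernel)

theorem p0_7_31 : Ok2 par f7 (((((((((Box3.unit.l 0).r 1).r 0).r 2).r 1).r 2).l 1).r 0).l 2) (selB2 0 (selB2 0 (selB2 0 (selB2 0 (selB2 0 (selB2 0 (selB2 0 (selB2 0 C0 633825299971092744642148458495) 1851613) 8215) 17) 5600) 24) 24) 6) :=
  Ok2.run hw hf7 ⟨505,25,25,13,13⟩ 58
    (.chk true 0)
    (by decide +kernel)

theorem p0_7_32 : Ok2 par f7 ((((((((Box3.unit.l 0).r 1).r 0).r 2).r 1).r 2).l 1).l 0) (selB2 0 (selB2 0 (selB2 0 (selB2 0 (selB2 0 (selB2 0 (selB2 0 (selB2 0 C0 633825299971092744642148458495) 1851613) 8215) 17) 5600) 24) 24) 6) :=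
  Ok2.run hw hf7 ⟨414,19,19,13,13⟩ 58
    (.chk false 512)
    (by decide +kernel)

theorem p0_7_33 : Ok2 par f7 ((((((((((Box3.unit.l 0).r 1).r 0).r 2).r 1).r 2).r 1).l 0).r 2).l 1) (selB2 0 (selB2 0 (selB2 0 (selB2 0 (selB2 0 (selB2 0 (selB2 0 (selB2 0 C0 633825299971092744642148458495) 1851613) 8215) 17) 5600) 24) 24) 6) :=
  Ok2.run hw hf7 ⟨447,19,19,13,13⟩ 58
    (.chk false 512)
    (by decide +kernel)


end Crest.Agent.R163.P3
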