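import Crest.Agent.R163.Q3.D.P3.S0
import Crest.Agent.R163.Q3.D.P3.H

set_option autoImplicit false
set_option maxRecDepth 100000
set_option linter.all false
set_option Elab.async false

namespace Crest.Agent.R163.P3

theorem p0_7_34 : Ok2 par f7 ((((((((((Box3.unit.l 0).r 1).r 0).r 2).r 1).r 2).r 1).l 0).r 2).r 1) (selB2 0 (selB2 0 (selB2 0 (selB2 0 (selB2 0 (selB2 0 (selB2 0 (selB2 0 C0 633825299971092744642148458495) 1851613) 8215) 17) 5600) 24) 24) 6) :=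
  Ok2.run hw hf7 ⟨576,25,25,13,13⟩ 58
    (.split 2 (.split 0 (.chk false 512) (.chk true 0)) (.split 0 (.chk false 512) (.chk true 0)))
    (by decide +kernel)

theorem p0_7_35 : Ok2 par f7 (((((((((Box3.unit.l 0).r 1).r 0).r 2).r 1).r 2).r 1).l 0).l 2) (selB2 0 (selB2 0 (selB2 0 (selB2 0 (selB2 0 (selB2 0 (selB2 0 (selB2 0 C0 633825299971092744642148458495) 1851613) 8215) 17) 5600) 24) 24) 6) :=
  Ok2.run hw hf7 ⟨538,25,25,13,13⟩ 58
    (.split 1 (.chk false 512) (.chk true 0))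
    (by decide +kernel)

theorem p0_7_36 : Ok2 par f7 ((((((((Box3.unit.l 0).r 1).r 0).r 2).r 1).r 2).r 1).r 0) (selB2 0 (selB2 0 (selB2 0 (selB2 0 (selB2 0 (selB2 0 (selB2 0 (selB2 0 C0 633825299971092744642148458495) 1851613) 8215) 17) 5600) 24) 24) 6) :=
  Ok2.run hw hf7 ⟨497,25,25,13,13⟩ 58
    (.chk true 0)
    (by decide +kernel)

theorem p0_7_37 : Ok2 par f7 ((((((Box3.unit.l 0).r 1).r 0).r 2).r 1).l 2) (selB2 0 (selB2 0 (selB2 0 (selB2 0 (selB2 0 (selB2 0 (selB2 0 (selB2 0 C0 633825299971092744642148458495) 1851613) 8215) 17) 5600) 24) 24) 6) :=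
  Ok2.run hw hf7 ⟨446,25,25,13,13⟩ 58
    (.chk true 0)
    (by decide +kernel)

theorem p0_7_38 : Ok2 par f7 (((Box3.unit.l 0).r 1).r 0) (selB2 1 (selB2 0 (selB2 0 (selB2 0 (selB2 0 (selB2 0 (selB2 0 (selB2 0 C0 633825299971092744642148458495) 1851613) 8215) 17) 5600) 24) 24) 6) :=
  Ok2.run hw hf7 ⟨391,25,25,13,13⟩ 58
    (.chk true 0)
    (by decide +kernel)

theorem p0_7_39 : Ok2 par f7 (((Box3.unit.l 0).r 1).r 0) (selB2 1 (selB2 0 (selB2 0 (selB2 0 (selB2 0 (selB2 0 (selB2 0 C0 633825299971092744642148458495) 1851613) 8215) 17) 5600) 24) 24) :=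
  Ok2.run hw hf7 ⟨324,19,19,13,13⟩ 58
    (.chk false 0)
    (by decide +kernel)

theorem p0_7_40 : Ok2 par f7 ((Box3.unit.l 0).r 1) (selB2 1 (selB2 0 (selB2 0 (selB2 0 (selB2 0 (selB2 0 C0 633825299971092744642148458495) 1851613) 8215) 17) 5600) 24) :=
  Ok2.run hw hf7 ⟨372,25,25,13,13⟩ 58
    (.chk true 0)
    (by decide +kernel)

theorem p0_7_41 : Ok2 par f7 ((Box3.unit.l 0).r 1) (selB2 1 (selB2 0 (selB2 0 (selB2 0 (selB2 0 C0 633825299971092744642148458495) 1851613) 8215) 17) 5600) :=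
  Ok2.run hw hf7 ⟨311,19,19,13,13⟩ 58
    (.chk false 0)
    (by decide +kernel)

theorem p0_7_42 : Ok2 par f7 (Box3.unit.l 0) (selB2 1 (selB2 0 (selB2 0 (selB2 0 C0 633825299971092744642148458495) 1851613) 8215) 17) :=
  Ok2.run hw hf7 ⟨337,25,25,13,13⟩ 58
    (.chk true 0)
    (by decide +kernel)

theorem p0_7_43 : Ok2 par f7 (Box3.unit.l 0) (selB2 1 (selB2 0 (selB2 0 C0 633825299971092744642148458495) 1851613) 8215) :=
  Ok2.run hw hf7 ⟨282,19,19,13,13⟩ 58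
    (.chk false 256)
    (by decide +kernel)

theorem p0_7_44 : Ok2 par f7 (((Box3.unit.r 0).l 1).l 1) (selB2 0 (selB2 0 (selB2 0 (selB2 0 (selB2 0 C0 633825299971092744642148458495) 1851613) 1046548) 323) 26) :=
  Ok2.run hw hf7 ⟨400,25,25,13,13⟩ 58
    (.chk true 0)
    (by decide +kernel)

theorem p0_7_45 : Ok2 par f7 (((Box3.unit.r 0).l 1).r 1) (selB2 0 (selB2 0 (selB2 0 (selB2 0 (selB2 0 C0 633825299971092744642148458495) 1851613) 1046548) 323) 26) :=
  Ok2.run hw hf7 ⟨463,25,25,13,13⟩ 58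
    (.part 2 (.chk true 0) (.split 2 (.split 0 (.chk true 0) (.split 1 (.chk true 0) (.chk true 0))) (.chk true 0)))
    (by decide +kernel)

theorem p0_7_46 : Ok2 par f7 ((Box3.unit.r 0).l 1) (selB2 1 (selB2 0 (selB2 0 (selB2 0 (selB2 0 C0 633825299971092744642148458495) 1851613) 1046548) 323) 26) :=
  Ok2.run hw hf7 ⟨372,25,25,13,13⟩ 58
    (.chk true 0)
    (by decide +kernel)

theorem p0_7_47 : Ok2 par f7 ((Box3.unit.r 0).r 1) (selB2 0 (selB2 0 (selB2 0 (selB2 0 C0 633825299971092744642148458495) 1851613) 1046548) 323) :=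
  Ok2.run hw hf7 ⟨436,25,25,13,13⟩ 58
    (.part 30 (.chk true 0) (.split 1 (.split 2 (.split 0 (.chk true 0) (.chk true 0)) (.chk true 0)) (.chk true 0)))
    (by decide +kernel)

theorem p0_7_48 : Ok2 par f7 (Box3.unit.r 0) (selB2 1 (selB2 0 (selB2 0 (selB2 0 C0 633825299971092744642148458495) 1851613) 1046548) 323) :=
  Ok2.run hw hf7 ⟨337,25,25,13,13⟩ 58
    (.chk true 0)
    (by decide +kernel)

theorem p0_7_49 : Ok2 par f7 (Box3.unit.r 0) (selB2 1 (selB2 0 (selB2 0 C0 633825299971092744642148458495) 1851613) 1046548) :=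
  Ok2.run hw hf7 ⟨282,19,19,13,13⟩ 58
    (.chk false 0)
    (by decide +kernel)

theorem p0_7_50 : Ok2 par f7 Box3.unit (selB2 1 (selB2 0 C0 633825299971092744642148458495) 1851613) :=
  Ok2.run hw hf7 ⟨303,25,25,13,13⟩ 58
    (.chk true 0)
    (by decide +kernel)

theorem p0_7_51 : Ok2 par f7 Box3.unit (selB2 1 C0 633825299971092744642148458495) :=
  Ok2.run hw hf7 ⟨254,19,19,13,13⟩ 58
    (.chk false 0)
    (by decide +kernel)


end Crest.Agent.R163.P3
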