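import Crest.Agent.R163.Q3.D.P3.P0_0
import Crest.Agent.R163.Q3.D.P3.P0_1
import Crest.Agent.R163.Q3.D.P3.P0_2
import Crest.Agent.R163.Q3.D.P3.P0_3
import Crest.Agent.R163.Q3.D.P3.P0_4

set_option autoImplicit false
set_option maxRecDepth 100000
set_option linter.all false
set_option Elab.async false

namespace Crest.Agent.R163.P3

theorem o0_7 : Ok2 par f7 Box3.unit C0 :=
  (Ok2.part 633825299971092744642148458495 p0_7_51 (Ok2.part 1851613 p0_7_50 (Ok2.split 0 (Ok2.part 8215 p0_7_43 (Ok2.part 17 p0_7_42 (Ok2.split 1 (Ok2.part 5377 p0_7_2 (Ok2.part 15 p0_7_0 p0_7_1)) (Ok2.part 5600 p0_7_41 (Ok2.part 24 p0_7_40 (Ok2.split 0 (Ok2.part 1 p0_7_5 (Ok2.part 3 p0_7_3 p0_7_4)) (Ok2.part 24 p0_7_39 (Ok2.part 6 p0_7_38 (Ok2.split 2 (Ok2.split 1 p0_7_6 p0_7_7) (Ok2.split 1 (Ok2.split 2 p0_7_19 (Ok2.split 1 p0_7_18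 (Ok2.split 0 p0_7_17 (Ok2.split 2 p0_7_16 (Ok2.split 1 p0_7_15 (Ok2.split 2 p0_7_14 (Ok2.split 0 p0_7_13 (Ok2.split 1 p0_7_12 (Ok2.split 2 p0_7_11 (Ok2.split 1 p0_7_10 (Ok2.split 2 p0_7_8 p0_7_9))))))))))) (Ok2.split 2 p0_7_37 (Ok2.split 1 (Ok2.split 0 p0_7_32 (Ok2.split 2 p0_7_31 (Ok2.split 1 (Ok2.split 2 p0_7_24 (Ok2.split 0 p0_7_23 (Ok2.split 1 (Ok2.split 2 p0_7_20 p0_7_21) p0_7_22))) (Ok2.split 2 p0_7_30 (Ok2.split 1 p0_7_29 (Ok2.split 2 p0_7_28 (Ok2.split 0 (Ok2.split 1 p0_7_25 p0_7_26) p0_7_27))))))) (Ok2.split 0 (Ok2.split 2 p0_7_35 (Ok2.split 1 p0_7_33 p0_7_34)) p0_7_36))))))))))))) (Ok2.part 1046548 p0_7_49 (Ok2.part 323 p0_7_48 (Ok2.split 1 (Ok2.part 26 p0_7_46 (Ok2.split 1 p0_7_44 p0_7_45)) p0_7_47))))))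
theorem o0_6 : Ok2 par f6 Box3.unit C0 :=
  (Ok2.part 633825300114113558008146427903 (Ok2.part 17592186044415 p0_6_0 p0_6_1) (Ok2.part 1021 p0_6_2 p0_6_3))
theorem o0_5 : Ok2 par f5 Box3.unit C0 :=
  (Ok2.part 633815836639260343260535586815 p0_5_19 (Ok2.part 500 p0_5_18 (Ok2.split 1 p0_5_17 (Ok2.split 0 (Ok2.part 23066847 p0_5_7 (Ok2.split 1 p0_5_6 (Ok2.split 0 (Ok2.part 1727 p0_5_2 (Ok2.split 2 p0_5_0 p0_5_1)) (Ok2.part 3021 p0_5_5 (Ok2.split 2 p0_5_3 p0_5_4))))) (Ok2.part 2116716391 p0_5_16 (Ok2.split 0 (Ok2.part 7 p0_5_13 (Ok2.split 1 p0_5_12 (Ok2.part 256 p0_5_11 (Ok2.split 2 p0_5_10 (Ok2.part 260 p0_5_8 p0_5_9))))) (Ok2.part 7741 p0_5_14 p0_5_15)))))))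
theorem o0_4 : Ok2 par f4 Box3.unit C0 :=
  (Ok2.part 633825282553390791611818704895 p0_4_9 (Ok2.split 0 p0_4_8 (Ok2.split 1 (Ok2.part 131182 p0_4_6 (Ok2.split 0 p0_4_5 (Ok2.split 1 (Ok2.part 4207 p0_4_3 (Ok2.split 0 p0_4_2 (Ok2.split 1 p0_4_0 p0_4_1))) p0_4_4))) p0_4_7)))
theorem o0_3 : Ok2 par f3 Box3.unit C0 :=
  (Ok2.part 317067392561958487909342380031 (Ok2.part 2199023255551 p0_3_0 p0_3_1) (Ok2.split 1 p0_3_15 (Ok2.split 0 (Ok2.part 131065 p0_3_2 p0_3_3) (Ok2.part 96 p0_3_14 (Ok2.split 1 p0_3_13 (Ok2.split 0 (Ok2.part 32409 p0_3_9 (Ok2.split 2 p0_3_8 (Ok2.part 18 p0_3_7 (Ok2.split 1 p0_3_6 (Ok2.split 0 p0_3_4 p0_3_5))))) (Ok2.part 2559 p0_3_12 (Ok2.split 2 p0_3_10 p0_3_11))))))))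
theorem o0_2 : Ok2 par f2 Box3.unit C0 :=
  (Ok2.part 317057893976047804718377336831 p0_2_34 (Ok2.split 1 (Ok2.part 558312192958 p0_2_15 (Ok2.split 1 (Ok2.part 2447 p0_2_5 (Ok2.split 0 (Ok2.split 2 p0_2_3 (Ok2.part 56 p0_2_2 (Ok2.split 0 p0_2_0 p0_2_1))) p0_2_4)) (Ok2.part 124 p0_2_14 (Ok2.split 0 (Ok2.part 199 p0_2_10 (Ok2.split 2 p0_2_9 (Ok2.split 0 p0_2_8 (Ok2.split 1 p0_2_6 p0_2_7)))) (Ok2.part 56 p0_2_13 (Ok2.split 2 p0_2_11 p0_2_12)))))) (Ok2.part 4526929151041 p0_2_33 (Ok2.split 0 (Ok2.part 5637144575 p0_2_16 p0_2_17) (Ok2.part 2952790016 p0_2_32 (Ok2.split 1 (Ok2.part 257949305 p0_2_23 (Ok2.split 0 p0_2_22 (Ok2.split 1 p0_2_21 (Ok2.part 60 p0_2_20 (Ok2.split 1 p0_2_18 p0_2_19))))) (Ok2.part 939689110 p0_2_31 (Ok2.split 0 p0_2_30 (Ok2.split 1 (Ok2.part 851964 p0_2_27 (Ok2.split 0 p0_2_26 (Ok2.split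 1 p0_2_24 p0_2_25))) (Ok2.part 747455 p0_2_28 p0_2_29))))))))))
theorem o0_1 : Ok2 par f1 Box3.unit C0 :=
  (Ok2.part 630730450015900827848638726143 (Ok2.part 140737488355327 p0_1_0 p0_1_1) (Ok2.split 0 p0_1_5 (Ok2.part 2 p0_1_4 (Ok2.split 2 p0_1_2 p0_1_3))))
theorem o0_0 : Ok2 par f0 Box3.unit C0 :=
  (Ok2.part 562949953421311 p0_0_0 p0_0_1)

theorem pt0 : PtAll2 par C0 :=
  PtAll2.of_okD hw (OkD2.cover [f0.dom,f1.dom,f2.dom,f3.dom,f4.dom,f5.dom,f6.dom,f7.dom]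
    (.split 0 (.leaf 0) (.split 1 (.split 0 (.leaf 1) (.leaf 2)) (.split 0 (.leaf 3) (.split 1 (.leaf 4) (.split 0 (.leaf 5) (.split 1 (.leaf 6) (.leaf 7)))))))
    (by decide +kernel)
    (List.forall_mem_cons.2 ⟨OkD2.of_ok o0_0, (List.forall_mem_cons.2 ⟨OkD2.of_ok o0_1, (List.forall_mem_cons.2 ⟨OkD2.of_ok o0_2, (List.forall_mem_cons.2 ⟨OkD2.of_ok o0_3, (List.forall_mem_cons.2 ⟨OkD2.of_ok o0_4, (List.forall_mem_cons.2 ⟨OkD2.of_ok o0_5, (List.forall_mem_cons.2 ⟨OkD2.of_ok o0_6, (List.forall_mem_cons.2 ⟨OkD2.of_ok o0_7, (fun _ h => nomatch h)⟩)⟩)⟩)⟩)⟩)⟩)⟩)⟩))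

end Crest.Agent.R163.P3
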