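import Crest.Agent.R163.Q3.D.P3.T0_0
import Crest.Agent.R163.Q3.D.P3.M0

set_option autoImplicit false
set_option maxRecDepth 100000
set_option linter.all false
set_option Elab.async false

namespace Crest.Agent.R163.P3

theorem Inf.cast {a b : Box} (h : Inf par a) (e : Box.beq a b = true) : Inf par b :=
  Box.eq_of_beq e ▸ h

theorem n24 : Inf par b24_0 :=
  Inf.empty (by decide +kernel)
theorem n24_0 : Inf par a24_0 :=
  Inf.steps2 hw _ b24_0 s24_0 c24_0 pt0.right.right.right.right.right.right.right.right.right.right.right.right.right.right.right.right.right.right.right.right n24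
theorem n23 : Inf par b23_0 :=
  Inf.empty (by decide +kernel)
theorem n23_0 : Inf par a23_0 :=
  Inf.steps2 hw _ b23_0 s23_0 c23_0 pt0.right.right.right.right.right.right.right.right.right.right.right.right.right.right.right.right.right.right.right.left n23
theorem n22 : Inf par b22_0 :=
  Inf.empty (by decide +kernel)
theorem n22_0 : Inf par a22_0 :=
  Inf.steps2 hw _ b22_0 s22_0 c22_0 pt0.right.right.right.right.right.right.right.right.right.right.right.right.right.right.right.right.right.right.left n22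
theorem n21 : Inf par b21_0 :=
  Inf.empty (by decide +kernel)
theorem n21_0 : Inf par a21_0 :=
  Inf.steps2 hw _ b21_0 s21_0 c21_0 pt0.right.right.right.right.right.right.right.right.right.right.right.right.right.right.right.right.right.left n21
theorem n20 : Inf par b20_0 :=
  Inf.empty (by decide +kernel)
theorem n20_0 : Inf par a20_0 :=
  Inf.steps2 hw _ b20_0 s20_0 c20_0 pt0.right.right.right.right.right.right.right.right.right.right.right.right.right.right.right.right.left n20
theorem n19 : Inf par b19_0 :=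
  Inf.spG 1 ⟨101872423,0,0⟩ (Inf.cast n20_0 (by decide +kernel)) (Inf.cast n21_0 (by decide +kernel))
theorem n19_0 : Inf par a19_0 :=
  Inf.steps2 hw _ b19_0 s19_0 c19_0 pt0.right.right.right.right.right.right.right.right.right.right.right.right.right.right.right.left n19
theorem n18 : Inf par b18_0 :=
  Inf.spG 1 ⟨124084423,0,0⟩ (Inf.cast n19_0 (by decide +kernel)) (Inf.cast n22_0 (by decide +kernel))
theorem n18_0 : Inf par a18_0 :=
  Inf.steps2 hw _ b18_0 s18_0 c18_0 pt0.right.right.right.right.right.right.right.right.right.right.right.right.right.right.left n18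
theorem n17 : Inf par b17_0 :=
  Inf.spG 1 ⟨168508423,0,0⟩ (Inf.cast n18_0 (by decide +kernel)) (Inf.cast n23_0 (by decide +kernel))
theorem n17_0 : Inf par a17_0 :=
  Inf.steps2 hw _ b17_0 s17_0 c17_0 pt0.right.right.right.right.right.right.right.right.right.right.right.right.right.left n17
theorem n16 : Inf par b16_0 :=
  Inf.spG 3 ⟨190605632,0,0⟩ (Inf.cast n17_0 (by decide +kernel)) (Inf.cast n24_0 (by decide +kernel))
theorem n16_0 : Inf par a16_0 :=
  Inf.steps2 hw _ b16_0 s16_0 c16_0 pt0.right.right.right.right.right.right.right.right.right.right.right.right.left n16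
theorem n15 : Inf par b15_0 :=
  Inf.empty (by decide +kernel)
theorem n15_0 : Inf par a15_0 :=
  Inf.steps2 hw _ b15_0 s15_0 c15_0 pt0.right.right.right.right.right.right.right.right.right.right.right.left n15
theorem n14 : Inf par b14_0 :=
  Inf.empty (by decide +kernel)
theorem n14_0 : Inf par a14_0 :=
  Inf.steps2 hw _ b14_0 s14_0 c14_0 pt0.right.right.right.right.right.right.right.right.right.right.left n14
theorem n13 : Inf par b13_0 :=
  Inf.spX 1448 (Inf.cast n14_0 (by decide +kernel)) (Inf.cast n15_0 (by decide +kernel))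
theorem n13_0 : Inf par a13_0 :=
  Inf.steps2 hw _ b13_0 s13_0 c13_0 pt0.right.right.right.right.right.right.right.right.right.left n13
theorem n12 : Inf par b12_0 :=
  Inf.empty (by decide +kernel)
theorem n12_0 : Inf par a12_0 :=
  Inf.steps2 hw _ b12_0 s12_0 c12_0 pt0.right.right.right.right.right.right.right.right.left n12
theorem n11 : Inf par b11_0 :=
  Inf.empty (by decide +kernel)
theorem n11_0 : Inf par a11_0 :=
  Inf.steps2 hw _ b11_0 s11_0 c11_0 pt0.right.right.right.right.right.right.right.left n11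
theorem n10 : Inf par b10_0 :=
  Inf.empty (by decide +kernel)
theorem n10_0 : Inf par a10_0 :=
  Inf.steps2 hw _ b10_0 s10_0 c10_0 pt0.right.right.right.right.right.right.left n10
theorem n9 : Inf par b9_0 :=
  Inf.empty (by decide +kernel)
theorem n9_0 : Inf par a9_0 :=
  Inf.steps2 hw _ b9_0 s9_0 c9_0 pt0.right.right.right.right.right.left n9
def e8 : Box := ⟨512,1024,[⟨-99078,228525389,28790424⟩,⟨-3684694,382804535,-339567890⟩,⟨0,111266352,0⟩,⟨0,200826824,0⟩],[⟨511855,220781305,83966733⟩,⟨711716,295586727,127645457⟩,⟨0,150976125,0⟩,⟨0,278421406,0⟩]⟩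
theorem n8 : Inf par e8 :=
  Inf.spG 3 ⟨0,239624115,0⟩ (Inf.cast n9_0 (by decide +kernel)) (Inf.cast n10_0 (by decide +kernel))
def e7 : Box := ⟨512,1024,[⟨-99078,228525389,28790424⟩,⟨-3684694,382804535,-339567890⟩,⟨0,111266352,0⟩,⟨0,200826824,0⟩],[⟨511855,220781305,83966733⟩,⟨711716,295586727,127645457⟩,⟨0,190685899,0⟩,⟨0,278421406,0⟩]⟩
theorem n7 : Inf par e7 :=
  Inf.spG 2 ⟨0,150976125,0⟩ (Inf.cast n8 (by decide +kernel)) (Inf.cast n11_0 (by decide +kernel))
theorem n6 : Inf par b6_0 :=
  Inf.spG 3 ⟨0,278421406,0⟩ (Inf.cast n7 (by decide +kernel)) (Inf.cast n12_0 (by decide +kernel))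
theorem n6_0 : Inf par a6_0 :=
  Inf.steps2 hw _ b6_0 s6_0 c6_0 pt0.right.right.right.right.left n6
theorem n5 : Inf par b5_0 :=
  Inf.empty (by decide +kernel)
theorem n5_0 : Inf par a5_0 :=
  Inf.steps2 hw _ b5_0 s5_0 c5_0 pt0.right.right.right.left n5
theorem n4 : Inf par b4_0 :=
  Inf.empty (by decide +kernel)
theorem n4_0 : Inf par a4_0 :=
  Inf.steps2 hw _ b4_0 s4_0 c4_0 pt0.right.right.left n4
theorem n3 : Inf par b3_0 :=
  Inf.spX 256 (Inf.cast n4_0 (by decide +kernel)) (Inf.cast n5_0 (by decide +kernel))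
theorem n3_0 : Inf par a3_0 :=
  Inf.steps2 hw _ b3_0 s3_0 c3_0 pt0.right.left n3
def e2 : Box := ⟨0,1024,[⟨0,204563726,0⟩,⟨0,266758864,0⟩,⟨0,111266352,0⟩,⟨0,200826824,0⟩],[⟨0,329993202,0⟩,⟨0,480800823,0⟩,⟨0,190685899,0⟩,⟨0,356015989,0⟩]⟩
theorem n2 : Inf par e2 :=
  Inf.spX 512 (Inf.cast n3_0 (by decide +kernel)) (Inf.cast n6_0 (by decide +kernel))
theorem n1 : Inf par b1_0 :=
  Inf.spX 1024 (Inf.cast n2 (by decide +kernel)) (Inf.cast n13_0 (by decide +kernel))
theorem n1_0 : Inf par a1_0 :=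
  Inf.steps2 hw _ b1_0 s1_0 c1_0 pt0.left n1
def e0 : Box := ⟨0,16384,[⟨0,0,0⟩,⟨0,0,0⟩,⟨0,0,0⟩,⟨0,0,0⟩],[⟨19327352832,0,0⟩,⟨19327352832,0,0⟩,⟨19327352832,0,0⟩,⟨19327352832,0,0⟩]⟩
theorem n0 : Inf par e0 :=
  Inf.spX 2048 (Inf.cast n1_0 (by decide +kernel)) (Inf.cast n16_0 (by decide +kernel))

theorem main : Inf par (box0 par 0 16384) :=
  Inf.cast n0 (by decide +kernel)

end Crest.Agent.R163.P3
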