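import Crest.Agent.R163.Q3.D.P3.S0
import Crest.Agent.R163.Q3.D.P3.H

set_option autoImplicit false
set_option maxRecDepth 100000
set_option linter.all false
set_option Elab.async false

namespace Crest.Agent.R163.P3

theorem p0_0_0 : Ok2 par f0 Box3.unit (selB2 1 C0 562949953421311) :=
  Ok2.run hw hf0 ⟨237,19,19,16,13⟩ 58
    (.chk false 2048)
    (by decide +kernel)

theorem p0_0_1 : Ok2 par f0 Box3.unit (selB2 0 C0 562949953421311) :=
  Ok2.run hw hf0 ⟨237,19,19,16,13⟩ 58
    (.chk false 0)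
    (by decide +kernel)

theorem p0_1_0 : Ok2 par f1 Box3.unit (selB2 1 (selB2 1 C0 630730450015900827848638726143) 140737488355327) :=
  Ok2.run hw hf1 ⟨237,19,19,16,13⟩ 58
    (.chk false 2048)
    (by decide +kernel)

theorem p0_1_1 : Ok2 par f1 Box3.unit (selB2 0 (selB2 1 C0 630730450015900827848638726143) 140737488355327) :=
  Ok2.run hw hf1 ⟨237,19,19,16,13⟩ 58
    (.chk false 0)
    (by decide +kernel)

theorem p0_1_2 : Ok2 par f1 ((Box3.unit.r 0).l 2) (selB2 0 (selB2 0 C0 630730450015900827848638726143) 2) :=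
  Ok2.run hw hf1 ⟨309,19,19,16,13⟩ 58
    (.part 1 (.chk false 0) (.split 0 (.chk false 0) (.chk false 0)))
    (by decide +kernel)

theorem p0_1_3 : Ok2 par f1 ((Box3.unit.r 0).r 2) (selB2 0 (selB2 0 C0 630730450015900827848638726143) 2) :=
  Ok2.run hw hf1 ⟨389,19,19,16,13⟩ 58
    (.part 6 (.chk false 0) (.split 1 (.split 0 (.split 2 (.chk false 0) (.split 1 (.split 0 (.chk false 0) (.chk false 0)) (.chk false 0))) (.chk false 0)) (.chk false 0)))
    (by decide +kernel)

theorem p0_1_4 : Ok2 par f1 (Box3.unit.r 0) (selB2 1 (selB2 0 C0 630730450015900827848638726143) 2) :=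
  Ok2.run hw hf1 ⟨265,19,19,16,13⟩ 58
    (.chk false 0)
    (by decide +kernel)

theorem p0_1_5 : Ok2 par f1 (Box3.unit.l 0) (selB2 0 C0 630730450015900827848638726143) :=
  Ok2.run hw hf1 ⟨265,19,19,16,13⟩ 58
    (.chk false 0)
    (by decide +kernel)

theorem p0_2_0 : Ok2 par f2 (((((Box3.unit.l 1).l 1).l 0).r 2).l 0) (selB2 0 (selB2 0 (selB2 0 (selB2 0 C0 317057893976047804718377336831) 558312192958) 2447) 56) :=
  Ok2.run hw hf2 ⟨435,19,19,13,13⟩ 58
    (.split 2 (.chk false 0) (.split 0 (.chk false 0) (.part 2 (.chk false 0) (.split 1 (.part 2 (.chk false 0) (.split 2 (.chk false 0) (.split 1 (.chk false 0) (.chk false 0)))) (.chk false 0)))))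
    (by decide +kernel)

theorem p0_2_1 : Ok2 par f2 (((((Box3.unit.l 1).l 1).l 0).r 2).r 0) (selB2 0 (selB2 0 (selB2 0 (selB2 0 C0 317057893976047804718377336831) 558312192958) 2447) 56) :=
  Ok2.run hw hf2 ⟨345,19,19,13,13⟩ 58
    (.chk false 0)
    (by decide +kernel)

theorem p0_2_2 : Ok2 par f2 ((((Box3.unit.l 1).l 1).l 0).r 2) (selB2 1 (selB2 0 (selB2 0 (selB2 0 C0 317057893976047804718377336831) 558312192958) 2447) 56) :=
  Ok2.run hw hf2 ⟨332,19,19,13,13⟩ 58
    (.chk false 0)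
    (by decide +kernel)

theorem p0_2_3 : Ok2 par f2 ((((Box3.unit.l 1).l 1).l 0).l 2) (selB2 0 (selB2 0 (selB2 0 C0 317057893976047804718377336831) 558312192958) 2447) :=
  Ok2.run hw hf2 ⟨414,19,19,13,13⟩ 58
    (.part 7 (.chk false 0) (.split 2 (.split 0 (.chk false 0) (.part 3 (.chk false 0) (.split 1 (.chk false 0) (.split 1 (.split 0 (.chk false 0) (.chk false 0)) (.chk false 0))))) (.chk false 0)))
    (by decide +kernel)

theorem p0_2_4 : Ok2 par f2 (((Box3.unit.l 1).l 1).r 0) (selB2 0 (selB2 0 (selB2 0 C0 317057893976047804718377336831) 558312192958) 2447) :=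
  Ok2.run hw hf2 ⟨314,19,19,13,13⟩ 58
    (.chk false 0)
    (by decide +kernel)

theorem p0_2_5 : Ok2 par f2 ((Box3.unit.l 1).l 1) (selB2 1 (selB2 0 (selB2 0 C0 317057893976047804718377336831) 558312192958) 2447) :=
  Ok2.run hw hf2 ⟨286,19,19,13,13⟩ 58
    (.chk false 2048)
    (by decide +kernel)

theorem p0_2_6 : Ok2 par f2 ((((((Box3.unit.l 1).r 1).l 0).r 2).r 0).l 1) (selB2 0 (selB2 0 (selB2 0 (selB2 0 C0 317057893976047804718377336831) 558312192958) 124) 199) :=
  Ok2.run hw hf2 ⟨357,19,19,13,13⟩ 58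
    (.chk false 0)
    (by decide +kernel)

theorem p0_2_7 : Ok2 par f2 ((((((Box3.unit.l 1).r 1).l 0).r 2).r 0).r 1) (selB2 0 (selB2 0 (selB2 0 (selB2 0 C0 317057893976047804718377336831) 558312192958) 124) 199) :=
  Ok2.run hw hf2 ⟨453,19,19,13,13⟩ 58
    (.part 2 (.chk false 0) (.split 2 (.chk false 0) (.split 0 (.part 2 (.chk false 0) (.split 1 (.chk false 0) (.split 2 (.chk false 0) (.split 0 (.split 1 (.chk false 0) (.chk false 0)) (.chk false 0))))) (.chk false 0))))
    (by decide +kernel)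

theorem p0_2_8 : Ok2 par f2 (((((Box3.unit.l 1).r 1).l 0).r 2).l 0) (selB2 0 (selB2 0 (selB2 0 (selB2 0 C0 317057893976047804718377336831) 558312192958) 124) 199) :=
  Ok2.run hw hf2 ⟨345,19,19,13,13⟩ 58
    (.chk false 0)
    (by decide +kernel)

theorem p0_2_9 : Ok2 par f2 ((((Box3.unit.l 1).r 1).l 0).l 2) (selB2 0 (selB2 0 (selB2 0 (selB2 0 C0 317057893976047804718377336831) 558312192958) 124) 199) :=
  Ok2.run hw hf2 ⟨323,19,19,13,13⟩ 58
    (.chk false 0)
    (by decide +kernel)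

theorem p0_2_10 : Ok2 par f2 (((Box3.unit.l 1).r 1).l 0) (selB2 1 (selB2 0 (selB2 0 (selB2 0 C0 317057893976047804718377336831) 558312192958) 124) 199) :=
  Ok2.run hw hf2 ⟨306,19,19,13,13⟩ 58
    (.chk false 2048)
    (by decide +kernel)

theorem p0_2_11 : Ok2 par f2 ((((Box3.unit.l 1).r 1).r 0).l 2) (selB2 0 (selB2 0 (selB2 0 (selB2 0 C0 317057893976047804718377336831) 558312192958) 124) 56) :=
  Ok2.run hw hf2 ⟨379,19,19,13,13⟩ 58
    (.part 20 (.chk false 0) (.split 0 (.chk false 2048) (.split 1 (.chk false 2048) (.part 3 (.chk false 2048) (.split 1 (.chk false 0) (.chk false 0))))))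
    (by decide +kernel)

theorem p0_2_12 : Ok2 par f2 ((((Box3.unit.l 1).r 1).r 0).r 2) (selB2 0 (selB2 0 (selB2 0 (selB2 0 C0 317057893976047804718377336831) 558312192958) 124) 56) :=
  Ok2.run hw hf2 ⟨396,19,19,13,13⟩ 58
    (.part 11 (.chk false 2048) (.split 1 (.part 2 (.chk false 0) (.split 2 (.chk false 0) (.split 1 (.chk false 0) (.split 0 (.chk false 0) (.chk false 0))))) (.part 1 (.chk false 0) (.split 1 (.chk false 0) (.chk false 0)))))
    (by decide +kernel)

theorem p0_2_13 : Ok2 par f2 (((Box3.unit.l 1).r 1).r 0) (selB2 1 (selB2 0 (selB2 0 (selB2 0 C0 317057893976047804718377336831) 558312192958) 124) 56) :=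
  Ok2.run hw hf2 ⟨306,19,19,13,13⟩ 58
    (.chk false 0)
    (by decide +kernel)

theorem p0_2_14 : Ok2 par f2 ((Box3.unit.l 1).r 1) (selB2 1 (selB2 0 (selB2 0 C0 317057893976047804718377336831) 558312192958) 124) :=
  Ok2.run hw hf2 ⟨277,19,19,13,13⟩ 58
    (.chk false 0)
    (by decide +kernel)

theorem p0_2_15 : Ok2 par f2 (Box3.unit.l 1) (selB2 1 (selB2 0 C0 317057893976047804718377336831) 558312192958) :=
  Ok2.run hw hf2 ⟨264,19,19,13,13⟩ 58
    (.chk false 2048)
    (by decide +kernel)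

theorem p0_2_16 : Ok2 par f2 ((Box3.unit.r 1).l 0) (selB2 1 (selB2 0 (selB2 0 C0 317057893976047804718377336831) 4526929151041) 5637144575) :=
  Ok2.run hw hf2 ⟨292,19,19,13,13⟩ 58
    (.chk false 2048)
    (by decide +kernel)

theorem p0_2_17 : Ok2 par f2 ((Box3.unit.r 1).l 0) (selB2 0 (selB2 0 (selB2 0 C0 317057893976047804718377336831) 4526929151041) 5637144575) :=
  Ok2.run hw hf2 ⟨345,19,19,13,13⟩ 58
    (.split 1 (.split 2 (.chk false 0) (.split 0 (.chk false 0) (.chk false 0))) (.chk false 0))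
    (by decide +kernel)

theorem p0_2_18 : Ok2 par f2 ((((((Box3.unit.r 1).r 0).l 1).r 0).r 1).l 1) (selB2 0 (selB2 0 (selB2 0 (selB2 0 (selB2 0 C0 317057893976047804718377336831) 4526929151041) 2952790016) 257949305) 60) :=
  Ok2.run hw hf2 ⟨449,19,19,13,13⟩ 58
    (.part 3 (.chk false 1024) (.split 1 (.chk false 0) (.part 1 (.chk false 0) (.split 2 (.chk false 0) (.split 0 (.split 2 (.chk false 0) (.split 1 (.chk false 0) (.chk false 0))) (.chk false 0))))))
    (by decide +kernel)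

theorem p0_2_19 : Ok2 par f2 ((((((Box3.unit.r 1).r 0).l 1).r 0).r 1).r 1) (selB2 0 (selB2 0 (selB2 0 (selB2 0 (selB2 0 C0 317057893976047804718377336831) 4526929151041) 2952790016) 257949305) 60) :=
  Ok2.run hw hf2 ⟨443,19,19,13,13⟩ 58
    (.part 14 (.chk false 1024) (.split 0 (.chk false 512) (.split 0 (.chk false 512) (.split 0 (.chk false 512) (.split 1 (.chk false 512) (.chk false 512))))))
    (by decide +kernel)

theorem p0_2_20 : Ok2 par f2 (((((Box3.unit.r 1).r 0).l 1).r 0).r 1) (selB2 1 (selB2 0 (selB2 0 (selB2 0 (selB2 0 C0 317057893976047804718377336831) 4526929151041) 2952790016) 257949305) 60) :=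
  Ok2.run hw hf2 ⟨348,19,19,13,13⟩ 58
    (.chk false 0)
    (by decide +kernel)


end Crest.Agent.R163.P3
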